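import Vale.Agent.P184.Defs

/-!
# P184, module MEANF
-/

namespace Vale.Agent.P184

universe u

open Classical in
theorem meanf : S_MEANF.{u} := by
  intro G _ g hA
  obtain ⟨m, hm, hinv⟩ := hA
  have hex : ∀ h : G, ∃ x : G, IsConj g h → x * g * x⁻¹ = h := by
    intro h
    by_cases hc : IsConj g h
    · obtain ⟨x, hx⟩ := isConj_iff.1 hc
      exact ⟨x, fun _ => hx⟩
    · exact ⟨1, fun h' => absurd h' hc⟩
  choose X hX using hex
  refine ⟨fun h f => m (fun z => f (X h * (z : G))), ?_, ?_, ?_⟩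
  · intro h _
    refine ⟨?_, ?_, ?_, ?_⟩
    · rintro f f' ⟨C, hC⟩ ⟨C', hC'⟩
      exact hm.add (fun z => f (X h * (z : G))) (fun z => f' (X h * (z : G)))
        ⟨C, fun z => hC _⟩ ⟨C', fun z => hC' _⟩
    · rintro c f ⟨C, hC⟩
      exact hm.smul c (fun z => f (X h * (z : G))) ⟨C, fun z => hC _⟩
    · intro f C hC
      exact hm.bound _ C fun z => hC _
    · exact hm.one
  · rintro h k f hc ⟨C, hC⟩
    have hc' : IsConj g (k * h * k⁻¹) := hc.trans (isConj_iff.2 ⟨k, rfl⟩)
    have e1 := hX h hc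
    have e2 := hX (k * h * k⁻¹) hc'
    have hz : (k * X h)⁻¹ * X (k * h * k⁻¹) ∈ Subgroup.centralizer ({g} : Set G) := by
      rw [Subgroup.mem_centralizer_singleton_iff]
      set x' := X (k * h * k⁻¹)
      have e3 : x' * g * x'⁻¹ = (k * X h) * g * (k * X h)⁻¹ := by
        rw [e2]
        have e5 : (k * X h) * g * (k * X h)⁻¹ = k * (X h * g * (X h)⁻¹) * k⁻¹ := by
          simp [mul_assoc]
        rw [e5, e1]
      have e4 : x' * g = (k * X h) * g * (k * X h)⁻¹ * x' := by
        rw [← e3]; simp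
      rw [mul_assoc, e4]
      simp [mul_assoc]
    have h1 := hinv ⟨_, hz⟩ (fun z => f (k * (X h * (z : G)))) ⟨C, fun z => hC _⟩
    show m (fun z => f (X (k * h * k⁻¹) * (z : G))) = m (fun z => f (k * (X h * (z : G))))
    rw [← h1]
    congr 1
    funext z
    congr 1
    show _ = k * (X h * ((k * X h)⁻¹ * X (k * h * k⁻¹) * (z : G)))
    simp [mul_assoc]
  · intro h f f' hc hff
    show m (fun z => f (X h * (z : G))) = m (fun z => f' (X h * (z : G)))
    congr 1
    funext z
    refine hff _ ?_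
    have hz := z.2
    rw [Subgroup.mem_centralizer_singleton_iff] at hz
    have e1 := hX h hc
    have : X h * (z : G) * g * (X h * (z : G))⁻¹ = X h * g * (X h)⁻¹ := by
      rw [mul_assoc (X h), hz, mul_inv_rev]
      simp [mul_assoc]
    rw [this, e1]

end Vale.Agent.P184
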